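import Vale.Agent.P042.R2.H285.Fac

set_option autoImplicit false

namespace Vale.Agent.P042.H285

open scoped BigOperators

/-- One block: `B = s ^ k`, `T` a set of nonzero classes modulo `B` all of whose members are
`k`-th powers modulo `B * m`. -/
theorem Fac.block {k B m d : ℕ} [NeZero B] [NeZero m] (s : ℕ) (hB : B = s ^ k)
    (T : Finset (ZMod B)) (hT0 : (0 : ZMod B) ∉ T)
    (hT : ∀ z : ℤ, (z : ZMod B) ∈ T → ∃ n : ZMod (B * m), (z : ZMod (B * m)) = n ^ k)
    (h : Fac k m d) : Fac k (B * m) ((B - T.card) * d) := by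
  classical
  obtain ⟨κ, _, hd, u, v, a, b⟩ := h
  obtain ⟨U, V, hU, hUV⟩ := poly_vectors (insert (0 : ZMod B) T) (Finset.mem_insert_self _ _)
  have hcT : (insert (0 : ZMod B) T).card = T.card + 1 := Finset.card_insert_of_notMem hT0
  have hle : T.card + 1 ≤ B := by
    rw [← hcT]
    simpa [ZMod.card] using Finset.card_le_univ (insert (0 : ZMod B) T)
  have hdim : B - (insert (0 : ZMod B) T).card + 1 = B - T.card := by omega
  have : NeZero (B * m) := ⟨Nat.mul_ne_zero (NeZero.ne B) (NeZero.ne m)⟩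
  let lo : ZMod (B * m) → ZMod B := fun x => ((x.val : ℕ) : ZMod B)
  let hi : ZMod (B * m) → ZMod m := fun x => ((x.val / B : ℕ) : ZMod m)
  refine ⟨Fin (B - (insert (0 : ZMod B) T).card + 1) × κ, inferInstance, ?_,
    fun x p => U (lo x) p.1 * u (hi x) p.2, fun x p => V (lo x) p.1 * v (hi x) p.2, ?_, ?_⟩
  · rw [Fintype.card_prod, Fintype.card_fin, hdim]
    exact Nat.mul_le_mul le_rfl hd
  · intro x
    have : ∑ p : Fin (B - (insert (0 : ZMod B) T).card + 1) × κ,
        U (lo x) p.1 * u (hi x) p.2 * (V (lo x) p.1 * v (hi x) p.2)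
        = (∑ i, U (lo x) i * V (lo x) i) * ∑ j, u (hi x) j * v (hi x) j := by
      rw [Finset.sum_mul_sum, Fintype.sum_prod_type]
      refine Finset.sum_congr rfl fun i _ => Finset.sum_congr rfl fun j _ => by ring
    rw [this]
    exact mul_ne_zero (hU _) (a _)
  · intro x y hxy
    have : ∑ p : Fin (B - (insert (0 : ZMod B) T).card + 1) × κ,
        U (lo x) p.1 * u (hi x) p.2 * (V (lo y) p.1 * v (hi y) p.2)
        = (∑ i, U (lo x) i * V (lo y) i) * ∑ j, u (hi x) j * v (hi y) j := by
      rw [Finset.sum_mul_sum, Fintype.sum_prod_type]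
      refine Finset.sum_congr rfl fun i _ => Finset.sum_congr rfl fun j _ => by ring
    rw [this]
    have hx : ((x.val : ℕ) : ZMod (B * m)) = x := ZMod.natCast_zmod_val x
    have hy : ((y.val : ℕ) : ZMod (B * m)) = y := ZMod.natCast_zmod_val y
    by_cases h1 : lo x - lo y ∈ insert (0 : ZMod B) T
    · rcases Finset.mem_insert.1 h1 with h2 | h2
      · -- same class modulo `B`
        have h3 : x.val % B = y.val % B := by
          have : ((x.val : ℕ) : ZMod B) = ((y.val : ℕ) : ZMod B) := sub_eq_zero.1 h2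
          exact (ZMod.natCast_eq_natCast_iff' _ _ _).1 this
        by_cases h4 : ∃ n : ZMod m, hi x - hi y = n ^ k
        · exfalso
          obtain ⟨n, hn⟩ := h4
          obtain ⟨X, hX⟩ : ∃ X : ℕ, X = x.val / B := ⟨_, rfl⟩
          obtain ⟨Y, hY⟩ : ∃ Y : ℕ, Y = y.val / B := ⟨_, rfl⟩
          have hn' : (X : ZMod m) - (Y : ZMod m) = n ^ k := by rw [hX, hY]; exact hn
          have h5 : ((((X : ℤ) - (Y : ℤ) - ((n.val : ℕ) : ℤ) ^ k : ℤ)) : ZMod m) = 0 := by
            have hnv : (((n.val : ℕ)) : ZMod m) = n := ZMod.natCast_zmod_val n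
            rw [Int.cast_sub, Int.cast_sub, Int.cast_pow, Int.cast_natCast, Int.cast_natCast,
              Int.cast_natCast, hnv, hn', sub_self]
          rw [ZMod.intCast_zmod_eq_zero_iff_dvd] at h5
          obtain ⟨t, ht⟩ := h5
          refine hxy (((s * n.val : ℕ)) : ZMod (B * m)) ?_
          have h6 : ((x.val : ℤ) - (y.val : ℤ)) = (B * m : ℕ) * t + ((s * n.val : ℕ) : ℤ) ^ k := by
            have e1 : (x.val : ℤ) = B * (X : ℤ) + ((x.val % B : ℕ) : ℤ) := by
              rw [hX]; exact_mod_cast (Nat.div_add_mod x.val B).symm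
            have e2 : (y.val : ℤ) = B * (Y : ℤ) + ((y.val % B : ℕ) : ℤ) := by
              rw [hY]; exact_mod_cast (Nat.div_add_mod y.val B).symm
            have e3 : (B : ℤ) = (s : ℤ) ^ k := by exact_mod_cast hB
            rw [e1, e2, h3, Nat.cast_mul, Nat.cast_mul, mul_pow, ← e3]
            linear_combination (B : ℤ) * ht
          have h7 : (((x.val : ℤ) - (y.val : ℤ) : ℤ) : ZMod (B * m))
              = (((B * m : ℕ) * t + ((s * n.val : ℕ) : ℤ) ^ k : ℤ) : ZMod (B * m)) := by
            rw [h6]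
          push_cast at h7
          rw [hx, hy] at h7
          rw [h7]
          have h8 : ((B : ZMod (B * m)) * (m : ZMod (B * m))) = 0 := by
            have := ZMod.natCast_self (B * m)
            push_cast at this
            exact this
          rw [h8]
          push_cast
          ring
        · rw [b _ _ (fun n hn => h4 ⟨n, hn⟩), mul_zero]
      · exfalso
        obtain ⟨n, hn⟩ := hT ((x.val : ℤ) - (y.val : ℤ)) (by push_cast; exact h2)
        refine hxy n ?_
        push_cast at hn
        rw [hx, hy] at hn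
        exact hn
    · rw [hUV _ _ h1, zero_mul]

/-- Base case: a set `T` of nonzero `k`-th powers modulo `q`. -/
theorem Fac.base {k q : ℕ} [NeZero q] (hk : 1 ≤ k) (T : Finset (ZMod q)) (hT0 : (0 : ZMod q) ∉ T)
    (hT : ∀ z ∈ T, ∃ n : ZMod q, z = n ^ k) : Fac k q (q - T.card) := by
  classical
  obtain ⟨U, V, hU, hUV⟩ := poly_vectors (insert (0 : ZMod q) T) (Finset.mem_insert_self _ _)
  have hcT : (insert (0 : ZMod q) T).card = T.card + 1 := Finset.card_insert_of_notMem hT0
  have hle : T.card + 1 ≤ q := by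
    rw [← hcT]
    simpa [ZMod.card] using Finset.card_le_univ (insert (0 : ZMod q) T)
  refine ⟨_, inferInstance, ?_, U, V, hU, ?_⟩
  · rw [Fintype.card_fin]; omega
  · intro x y hxy
    refine hUV x y fun h => ?_
    rcases Finset.mem_insert.1 h with h | h
    · exact hxy 0 (by rw [h, zero_pow (by omega)])
    · obtain ⟨n, hn⟩ := hT _ h
      exact hxy n hn

theorem Fac.trivial {k q : ℕ} [NeZero q] (hk : 1 ≤ k) : Fac k q q := by
  simpa using Fac.base (k := k) (q := q) hk ∅ (by simp) (by simp)

end Vale.Agent.P042.H285
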