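import Mathlib

set_option autoImplicit false

/-!
P042, modular form: factor bounds. `Fac k q d`: there are vectors `u x`, `v x` (`x` in `ZMod q`)
indexed by a finite type with at most `d` elements, rational, with `u x ⬝ v x ≠ 0` and
`u x ⬝ v y = 0` whenever `x - y` is not a `k`-th power modulo `q`.
-/

namespace Vale.Agent.P042.H285

open scoped BigOperators

/-- No two distinct elements of `R` differ by a `k`-th power modulo `q`. -/
def PowFree (k q : ℕ) (R : Finset (ZMod q)) : Prop :=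
  ∀ x ∈ R, ∀ y ∈ R, x ≠ y → ∀ n : ZMod q, x - y ≠ n ^ k

def Fac (k q d : ℕ) : Prop :=
  ∃ (ι : Type) (_ : Fintype ι), Fintype.card ι ≤ d ∧
    ∃ u v : ZMod q → ι → ℚ, (∀ x, ∑ i, u x i * v x i ≠ 0) ∧
      ∀ x y, (∀ n : ZMod q, x - y ≠ n ^ k) → ∑ i, u x i * v y i = 0

theorem Fac.card_le {k q d : ℕ} (h : Fac k q d) {R : Finset (ZMod q)} (hR : PowFree k q R) :
    R.card ≤ d := by
  classical
  obtain ⟨ι, _, hd, u, v, h1, h2⟩ := h
  have hli : LinearIndependent ℚ (fun x : R => u x.1) := by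
    rw [Fintype.linearIndependent_iff]
    intro g hg y
    have h3 : ∑ i, (∑ x : R, g x • u x.1) i * v y.1 i = 0 := by
      rw [hg]; simp
    have h4 : ∑ i, (∑ x : R, g x • u x.1) i * v y.1 i
        = ∑ x : R, g x * ∑ i, u x.1 i * v y.1 i := by
      simp only [Finset.sum_apply, Pi.smul_apply, smul_eq_mul, Finset.sum_mul, Finset.mul_sum]
      rw [Finset.sum_comm]
      refine Finset.sum_congr rfl fun x _ => Finset.sum_congr rfl fun i _ => by ring
    rw [h4, Finset.sum_eq_single y] at h3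
    · exact (mul_eq_zero.1 h3).resolve_right (h1 y.1)
    · intro x _ hxy
      have : ∀ n : ZMod q, x.1 - y.1 ≠ n ^ k :=
        hR x.1 x.2 y.1 y.2 (fun h => hxy (Subtype.ext h))
      rw [h2 _ _ this, mul_zero]
    · intro h; exact absurd (Finset.mem_univ _) h
  have h5 := hli.fintype_card_le_finrank
  rw [Module.finrank_fintype_fun_eq_card] at h5
  simpa using h5.trans hd

theorem Fac.mono {k q d d' : ℕ} (h : Fac k q d) (hd : d ≤ d') : Fac k q d' := by
  obtain ⟨ι, i1, h1, h2⟩ := h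
  exact ⟨ι, i1, h1.trans hd, h2⟩

/-- Coprime moduli multiply. -/
theorem Fac.mul {k q₁ q₂ d₁ d₂ : ℕ} (hq : q₁.Coprime q₂) (h₁ : Fac k q₁ d₁) (h₂ : Fac k q₂ d₂) :
    Fac k (q₁ * q₂) (d₁ * d₂) := by
  classical
  obtain ⟨ι, _, hd₁, u₁, v₁, a₁, b₁⟩ := h₁
  obtain ⟨κ, _, hd₂, u₂, v₂, a₂, b₂⟩ := h₂
  let e := ZMod.chineseRemainder hq
  refine ⟨ι × κ, inferInstance, by simpa using Nat.mul_le_mul hd₁ hd₂,
    fun x p => u₁ (e x).1 p.1 * u₂ (e x).2 p.2, fun x p => v₁ (e x).1 p.1 * v₂ (e x).2 p.2, ?_, ?_⟩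
  · intro x
    have : ∑ p : ι × κ, u₁ (e x).1 p.1 * u₂ (e x).2 p.2 * (v₁ (e x).1 p.1 * v₂ (e x).2 p.2)
        = (∑ i, u₁ (e x).1 i * v₁ (e x).1 i) * ∑ j, u₂ (e x).2 j * v₂ (e x).2 j := by
      rw [Finset.sum_mul_sum, Fintype.sum_prod_type]
      refine Finset.sum_congr rfl fun i _ => Finset.sum_congr rfl fun j _ => by ring
    rw [this]
    exact mul_ne_zero (a₁ _) (a₂ _)
  · intro x y hxy
    have : ∑ p : ι × κ, u₁ (e x).1 p.1 * u₂ (e x).2 p.2 * (v₁ (e y).1 p.1 * v₂ (e y).2 p.2)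
        = (∑ i, u₁ (e x).1 i * v₁ (e y).1 i) * ∑ j, u₂ (e x).2 j * v₂ (e y).2 j := by
      rw [Finset.sum_mul_sum, Fintype.sum_prod_type]
      refine Finset.sum_congr rfl fun i _ => Finset.sum_congr rfl fun j _ => by ring
    rw [this]
    by_cases h1 : ∃ n : ZMod q₁, (e x).1 - (e y).1 = n ^ k
    · by_cases h2 : ∃ n : ZMod q₂, (e x).2 - (e y).2 = n ^ k
      · exfalso
        obtain ⟨n₁, hn₁⟩ := h1
        obtain ⟨n₂, hn₂⟩ := h2
        refine hxy (e.symm (n₁, n₂)) ?_
        apply e.injective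
        rw [map_sub, map_pow, RingEquiv.apply_symm_apply]
        ext
        · simpa using hn₁
        · simpa using hn₂
      · rw [b₂ _ _ (fun n hn => h2 ⟨n, hn⟩), mul_zero]
    · rw [b₁ _ _ (fun n hn => h1 ⟨n, hn⟩), zero_mul]

/-- The polynomial vectors: for a set `S` of residues modulo `B` with `0 ∈ S` there are vectors in
dimension `B - |S| + 1` with `u x ⬝ v x ≠ 0` and `u x ⬝ v y = 0` if `x - y ∉ S`. -/
theorem poly_vectors {B : ℕ} [NeZero B] (S : Finset (ZMod B)) (h0 : (0 : ZMod B) ∈ S) :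
    ∃ u v : ZMod B → Fin (B - S.card + 1) → ℚ, (∀ x, ∑ i, u x i * v x i ≠ 0) ∧
      ∀ x y, x - y ∉ S → ∑ i, u x i * v y i = 0 := by
  classical
  -- the polynomial with roots the `z` with `x - z ∉ S`
  let N : ZMod B → Finset (ZMod B) := fun x => Finset.univ.filter fun z => x - z ∉ S
  let f : ZMod B → Polynomial ℚ := fun x =>
    ∏ z ∈ N x, (Polynomial.X - Polynomial.C ((z.val : ℕ) : ℚ))
  have hcard : ∀ x, (N x).card = B - S.card := by
    intro x
    have h1 : (N x).card = (Finset.univ.filter fun w : ZMod B => w ∉ S).card := by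
      refine Finset.card_bij (fun z _ => x - z) ?_ ?_ ?_
      · intro z hz
        simpa [N] using hz
      · intro z _ z' _ h
        simpa using h
      · intro w hw
        refine ⟨x - w, ?_, by simp⟩
        simpa [N] using hw
    rw [h1]
    have h2 : (Finset.univ.filter fun w : ZMod B => w ∉ S) = Sᶜ := by
      ext w; simp
    rw [h2, Finset.card_compl, ZMod.card]
  have hdeg : ∀ x, (f x).natDegree = B - S.card := by
    intro x
    simp only [f]
    rw [Polynomial.natDegree_finsetProd_X_sub_C_eq_card, hcard]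
  have heval : ∀ x y : ZMod B,
      ∑ i : Fin (B - S.card + 1), (f x).coeff i * ((y.val : ℕ) : ℚ) ^ (i : ℕ)
        = (f x).eval ((y.val : ℕ) : ℚ) := by
    intro x y
    rw [Polynomial.eval_eq_sum_range, hdeg x, Finset.sum_range]
  have hprod : ∀ x y : ZMod B, (f x).eval ((y.val : ℕ) : ℚ)
      = ∏ z ∈ N x, (((y.val : ℕ) : ℚ) - ((z.val : ℕ) : ℚ)) := by
    intro x y
    simp only [f]
    rw [Polynomial.eval_prod]
    simp
  refine ⟨fun x i => (f x).coeff i, fun y i => ((y.val : ℕ) : ℚ) ^ (i : ℕ), ?_, ?_⟩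
  · intro x
    rw [heval, hprod]
    refine Finset.prod_ne_zero_iff.2 fun z hz hzero => ?_
    have h1 : (x.val : ℚ) = (z.val : ℚ) := sub_eq_zero.1 hzero
    have h2 : x.val = z.val := by exact_mod_cast h1
    have h3 : x = z := ZMod.val_injective B h2
    subst h3
    have := (Finset.mem_filter.1 hz).2
    simp [h0] at this
  · intro x y hxy
    rw [heval, hprod]
    refine Finset.prod_eq_zero (i := y) ?_ (by simp)
    simp [N, hxy]

end Vale.Agent.P042.H285
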