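import Vale.Agent.P042.R2.H13.Hensel
import Vale.Agent.P042.R2.H817.Count

set_option autoImplicit false

namespace Vale.Agent.P042.H285

theorem hensel_coprime {p k : ℕ} (hp : p.Prime) (hk : ¬ p ∣ k) (z : ℤ) (h0 : (z : ZMod p) ≠ 0)
    (hz : ∃ n : ZMod p, (z : ZMod p) = n ^ k) (N : ℕ) :
    ∃ n : ZMod (p ^ N), (z : ZMod (p ^ N)) = n ^ k :=
  Vale.Agent.P042.H13.hensel_coprime hp hk z h0 hz N

theorem hensel_dvd {p k : ℕ} (hp : p.Prime) (hk : 1 ≤ k) (z : ℤ)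
    (hz : (z : ZMod (p ^ (2 * k))) = 1) (N : ℕ) :
    ∃ n : ZMod (p ^ N), (z : ZMod (p ^ N)) = n ^ k :=
  Vale.Agent.P042.H13.hensel_dvd hp hk z hz N

theorem count_lifts {p k j : ℕ} (hp : p.Prime) (hk : 1 ≤ k) (hj : 1 ≤ j) :
    ∃ T : Finset (ZMod (p ^ j)), (0 : ZMod (p ^ j)) ∉ T ∧
      (∀ z : ℤ, (z : ZMod (p ^ j)) ∈ T → (z : ZMod p) ≠ 0 ∧ ∃ n : ZMod p, (z : ZMod p) = n ^ k) ∧
      p ^ (j - 1) * (p - 1) ≤ k * T.card :=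
  Vale.Agent.P042.H817.count_lifts hp hk hj

end Vale.Agent.P042.H285
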