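import Vale.Agent.P042.R2.H285.PrimePow

set_option autoImplicit false

namespace Vale.Agent.P042.H285

open scoped BigOperators

/-- One-sided bound: positive differences only. -/
theorem Fac.card_le_of_lt {k q d : ℕ} (h : Fac k q d) (A : Finset ℤ) (φ : ℤ → ZMod q)
    (hA : ∀ x ∈ A, ∀ y ∈ A, y < x → ∀ n : ZMod q, φ x - φ y ≠ n ^ k) : A.card ≤ d := by
  classical
  obtain ⟨ι, _, hd, u, v, h1, h2⟩ := h
  have hli : LinearIndependent ℚ (fun x : A => u (φ x.1)) := by
    rw [Fintype.linearIndependent_iff]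
    intro g hg
    by_contra hne
    push Not at hne
    obtain ⟨y0, hy0⟩ := hne
    let S : Finset A := Finset.univ.filter fun x => g x ≠ 0
    have hS : S.Nonempty := ⟨y0, by simp [S, hy0]⟩
    obtain ⟨y, hyS, hmin⟩ := S.exists_min_image (fun x => x.1) hS
    have hy : g y ≠ 0 := by simpa [S] using hyS
    have h3 : ∑ i, (∑ x : A, g x • u (φ x.1)) i * v (φ y.1) i = 0 := by
      rw [hg]; simp
    have h4 : ∑ i, (∑ x : A, g x • u (φ x.1)) i * v (φ y.1) i
        = ∑ x : A, g x * ∑ i, u (φ x.1) i * v (φ y.1) i := by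
      simp only [Finset.sum_apply, Pi.smul_apply, smul_eq_mul, Finset.sum_mul, Finset.mul_sum]
      rw [Finset.sum_comm]
      refine Finset.sum_congr rfl fun x _ => Finset.sum_congr rfl fun i _ => by ring
    rw [h4, Finset.sum_eq_single y] at h3
    · exact hy ((mul_eq_zero.1 h3).resolve_right (h1 _))
    · intro x _ hxy
      by_cases hgx : g x = 0
      · rw [hgx, zero_mul]
      · have hle : y.1 ≤ x.1 := hmin x (by simp [S, hgx])
        have hlt : y.1 < x.1 := lt_of_le_of_ne hle (fun h => hxy (Subtype.ext h.symm))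
        rw [h2 _ _ (hA x.1 x.2 y.1 y.2 hlt), mul_zero]
    · intro h; exact absurd (Finset.mem_univ _) h
  have h5 := hli.fintype_card_le_finrank
  rw [Module.finrank_fintype_fun_eq_card] at h5
  simpa using h5.trans hd

/-- `A` has no positive difference `x - y ≡ a n ^ k` modulo `q`. -/
def FreeMod (k : ℕ) (a : ℤ) (q : ℕ) (A : Finset ℤ) : Prop :=
  ∀ x ∈ A, ∀ y ∈ A, y < x → ∀ n : ℤ, ¬ x - y ≡ a * n ^ k [ZMOD q]

theorem card_le_gcd {k q d : ℕ} (hq : 1 ≤ q) (a : ℤ) (h : Fac k (q / Int.gcd a q) d)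
    (A : Finset ℤ) (hA : FreeMod k a q A) : A.card ≤ Int.gcd a q * d := by
  classical
  have hg0 : 0 < Int.gcd a q := Int.gcd_pos_of_ne_zero_right _ (by exact_mod_cast (by omega : q ≠ 0))
  obtain ⟨g, hg⟩ : ∃ g, g = Int.gcd a q := ⟨_, rfl⟩
  rw [← hg] at h hg0 ⊢
  have hgq : g ∣ q := by
    have := Int.gcd_dvd_right a (q : ℤ)
    rw [← hg] at this
    exact_mod_cast this
  obtain ⟨m, hm⟩ := hgq
  have hqg : q / g = m := by rw [hm, Nat.mul_div_cancel_left _ hg0]
  rw [hqg] at h
  have hga : (g : ℤ) ∣ a := by rw [hg]; exact Int.gcd_dvd_left a _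
  obtain ⟨a', ha'⟩ := hga
  have hcop : Int.gcd a' m = 1 := by
    have h1 : Int.gcd a q = g * Int.gcd a' m := by
      rw [ha', hm, Nat.cast_mul, Int.gcd_mul_left, Int.natAbs_natCast]
    rw [← hg] at h1
    exact (Nat.eq_of_mul_eq_mul_left hg0 (by rw [mul_one]; exact h1)).symm
  obtain ⟨b, c, hbc⟩ : ∃ b c : ℤ, a' * b + m * c = 1 := by
    have := Int.gcd_eq_gcd_ab a' m
    rw [hcop] at this
    exact ⟨_, _, by rw [← this]; simp⟩
  -- classes modulo `g`
  have hcard : A.card = ∑ r ∈ Finset.range g, (A.filter fun x => x % (g : ℤ) = (r : ℤ)).card := by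
    rw [← Finset.card_biUnion]
    · congr 1
      ext x
      simp only [Finset.mem_biUnion, Finset.mem_range, Finset.mem_filter]
      constructor
      · intro hx
        have h0 : 0 ≤ x % (g : ℤ) := Int.emod_nonneg _ (by omega)
        have h1 : x % (g : ℤ) < g := Int.emod_lt_of_pos _ (by omega)
        exact ⟨(x % (g : ℤ)).toNat, by omega, hx, by omega⟩
      · rintro ⟨r, _, hx, _⟩; exact hx
    · intro r _ s _ hrs
      rw [Function.onFun, Finset.disjoint_left]
      intro x hx hx'
      rw [Finset.mem_filter] at hx hx'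
      exact hrs (by have := hx.2.symm.trans hx'.2; exact_mod_cast this)
  rw [hcard]
  calc ∑ r ∈ Finset.range g, (A.filter fun x => x % (g : ℤ) = (r : ℤ)).card
      ≤ ∑ _r ∈ Finset.range g, d := by
        refine Finset.sum_le_sum fun r _ => ?_
        refine h.card_le_of_lt _ (fun x => ((b * (x / (g : ℤ)) : ℤ) : ZMod m)) ?_
        intro x hx y hy hyx n hn
        rw [Finset.mem_filter] at hx hy
        obtain ⟨N, rfl⟩ : ∃ N : ℤ, (N : ZMod m) = n := ZMod.intCast_surjective n
        refine hA x hx.1 y hy.1 hyx N ?_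
        have h1 : (((b * (x / (g : ℤ)) - b * (y / (g : ℤ)) - N ^ k : ℤ)) : ZMod m) = 0 := by
          rw [Int.cast_sub, Int.cast_sub, Int.cast_pow]
          rw [hn, sub_self]
        rw [ZMod.intCast_zmod_eq_zero_iff_dvd] at h1
        obtain ⟨t, ht⟩ := h1
        have e1 : x = g * (x / (g : ℤ)) + x % (g : ℤ) := (Int.mul_ediv_add_emod x g).symm
        have e2 : y = g * (y / (g : ℤ)) + y % (g : ℤ) := (Int.mul_ediv_add_emod y g).symm
        rw [Int.modEq_iff_dvd]
        refine ⟨-(a' * t) - c * (x / (g : ℤ) - y / (g : ℤ)), ?_⟩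
        have e3 : x - y = g * (x / (g : ℤ) - y / (g : ℤ)) := by
          have := hx.2; have := hy.2
          linarith
        obtain ⟨X, hX⟩ : ∃ X, X = x / (g : ℤ) := ⟨_, rfl⟩
        obtain ⟨Y, hY⟩ : ∃ Y, Y = y / (g : ℤ) := ⟨_, rfl⟩
        rw [← hX, ← hY] at ht e3 ⊢
        rw [e3, ha', hm, Nat.cast_mul]
        linear_combination (-(g : ℤ) * a') * ht + (g : ℤ) * (X - Y) * hbc
    _ = g * d := by simp

theorem two_pow_len {g : ℕ} (hg : 1 ≤ g) : 2 ^ g.primeFactorsList.length ≤ g := by
  have h1 := List.pow_card_le_prod g.primeFactorsList 2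
    (fun x hx => (Nat.prime_of_mem_primeFactorsList hx).two_le)
  rwa [Nat.prod_primeFactorsList (by omega)] at h1

theorem le_pow_len {q P : ℕ} (hq : 1 ≤ q) (hP : ∀ p ∈ q.primeFactors, p ≤ P) :
    q ≤ P ^ q.primeFactorsList.length := by
  have h1 := List.prod_le_pow_card q.primeFactorsList P
    (fun x hx => hP x (by
      rw [Nat.mem_primeFactors]
      exact ⟨Nat.prime_of_mem_primeFactorsList hx, Nat.dvd_of_mem_primeFactorsList hx, by omega⟩))
  rwa [Nat.prod_primeFactorsList (by omega)] at h1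

/-- The bound: `A` a finite set of integers without positive differences `≡ a n ^ k` modulo `q`;
`Ω q` is the number of prime factors of `q` with multiplicity. -/
def ModPow : Prop := ∀ k : ℕ, 2 ≤ k → ∃ c K : ℝ, 0 < c ∧ 0 < K ∧
    ∀ (a : ℤ) (q : ℕ), 1 ≤ q → ∀ A : Finset ℤ, FreeMod k a q A →
      (A.card : ℝ) ≤ K * (Int.gcd a q : ℝ) * q * Real.exp (-c * q.primeFactorsList.length) ∧
      ∀ P : ℕ, 2 ≤ P → (∀ p ∈ q.primeFactors, p ≤ P) →
        (A.card : ℝ) ≤ K * (Int.gcd a q : ℝ) * (q : ℝ) ^ (1 - c / Real.log P)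

theorem main_bound {k : ℕ} (hk : 2 ≤ k) : ∃ c K : ℝ, 0 < c ∧ 0 < K ∧
    ∀ (a : ℤ) (q : ℕ), 1 ≤ q → ∀ A : Finset ℤ, FreeMod k a q A →
      (A.card : ℝ) ≤ K * (Int.gcd a q : ℝ) * q * Real.exp (-c * q.primeFactorsList.length) ∧
      ∀ P : ℕ, 2 ≤ P → (∀ p ∈ q.primeFactors, p ≤ P) →
        (A.card : ℝ) ≤ K * (Int.gcd a q : ℝ) * (q : ℝ) ^ (1 - c / Real.log P) := by
  have hr0 := rho_pos hk
  have hr1 := rho_lt_one hk
  have hk2 : (2 : ℝ) ≤ k := by exact_mod_cast hk
  have hL : 0 < -Real.log (rho k) := by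
    have := Real.log_neg hr0 hr1
    linarith
  have hhalf : 1 / 2 ≤ rho k := by
    have h1 := kpow_ge hk
    have h2 : 1 / (k : ℝ) ^ (2 * k) ≤ 1 / 2 := by
      apply one_div_le_one_div_of_le (by norm_num); linarith
    unfold rho; linarith
  have hL2 : -Real.log (rho k) ≤ Real.log 2 := by
    have h1 := Real.log_le_log (by norm_num) hhalf
    rw [one_div, Real.log_inv] at h1
    linarith
  obtain ⟨L, hLdef⟩ : ∃ L, L = -Real.log (rho k) := ⟨_, rfl⟩
  rw [← hLdef] at hL hL2
  have hk0 : (0 : ℝ) < 2 * k := by linarith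
  refine ⟨L / (2 * k), Real.exp (k * L), by positivity, Real.exp_pos _, ?_⟩
  intro a q hq A hA
  have hg0 : 0 < Int.gcd a q :=
    Int.gcd_pos_of_ne_zero_right _ (by exact_mod_cast (by omega : q ≠ 0))
  have hgq : Int.gcd a q ∣ q := by
    have := Int.gcd_dvd_right a (q : ℤ)
    exact_mod_cast this
  have hfirst : (A.card : ℝ) ≤ Real.exp (k * L) * (Int.gcd a q : ℝ) * q *
      Real.exp (-(L / (2 * k)) * q.primeFactorsList.length) := by
    have hgen : ∀ d, Fac k (q / Int.gcd a q) d → A.card ≤ Int.gcd a q * d :=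
      fun d hd => card_le_gcd hq a hd A hA
    obtain ⟨g, hg⟩ : ∃ g, g = Int.gcd a q := ⟨_, rfl⟩
    rw [← hg] at hg0 hgq hgen ⊢
    obtain ⟨m, hm⟩ := hgq
    have hqg : q / g = m := by rw [hm, Nat.mul_div_cancel_left _ hg0]
    rw [hqg] at hgen
    have hm1 : 1 ≤ m := by
      rcases Nat.eq_zero_or_pos m with h | h
      · rw [h, mul_zero] at hm; omega
      · exact h
    obtain ⟨t, d, h1, h2, h3⟩ := global hk m hm1
    have h4 := hgen d h2
    have h5 : (A.card : ℝ) ≤ g * ((m : ℝ) * rho k ^ t) := by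
      calc (A.card : ℝ) ≤ ((g * d : ℕ) : ℝ) := by exact_mod_cast h4
        _ = g * (d : ℝ) := by push_cast; ring
        _ ≤ _ := mul_le_mul_of_nonneg_left h3 (by positivity)
    have h6 : rho k ^ t = Real.exp (-(t * L)) := by
      rw [hLdef, mul_neg, neg_neg, Real.exp_nat_mul, Real.exp_log hr0]
    have h7 : (m.primeFactorsList.length : ℝ) ≤ 2 * k * (t + k) := by
      have h8 : m.primeFactorsList.length ≤ 2 * k * (t + k) :=
        h1.trans (Nat.mul_le_mul le_rfl (Nat.add_le_add_left (wk_le k m (by omega)) t))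
      exact_mod_cast h8
    have h9 : (q.primeFactorsList.length : ℝ)
        = g.primeFactorsList.length + m.primeFactorsList.length := by
      rw [hm, (Nat.perm_primeFactorsList_mul (by omega) (by omega)).length_eq, List.length_append]
      push_cast; ring
    have h10 : (g.primeFactorsList.length : ℝ) * Real.log 2 ≤ Real.log g := by
      have h11 : ((2 : ℝ)) ^ g.primeFactorsList.length ≤ g := by exact_mod_cast two_pow_len hg0
      have h12 := Real.log_le_log (by positivity) h11
      rwa [Real.log_pow] at h12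
    have hgR : (0 : ℝ) < g := by exact_mod_cast hg0
    have h13 : -(t * L) ≤ k * L + Real.log g + -(L / (2 * k)) * q.primeFactorsList.length := by
      rw [h9]
      have h14 : L / (2 * k) * m.primeFactorsList.length ≤ L * (t + k) := by
        rw [div_mul_eq_mul_div, div_le_iff₀ hk0]
        nlinarith [mul_le_mul_of_nonneg_left h7 hL.le]
      have h15 : L / (2 * k) ≤ Real.log 2 := by
        rw [div_le_iff₀ hk0]
        have : 0 < Real.log 2 := Real.log_pos (by norm_num)
        nlinarith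
      have h16 : L / (2 * k) * g.primeFactorsList.length
          ≤ Real.log 2 * g.primeFactorsList.length :=
        mul_le_mul_of_nonneg_right h15 (by positivity)
      nlinarith
    have h17 : Real.exp (-(t * L)) ≤ Real.exp (k * L) * g *
        Real.exp (-(L / (2 * k)) * q.primeFactorsList.length) := by
      calc Real.exp (-(t * L)) ≤ Real.exp (k * L + Real.log g
            + -(L / (2 * k)) * q.primeFactorsList.length) := Real.exp_le_exp.2 h13
        _ = _ := by rw [Real.exp_add, Real.exp_add, Real.exp_log hgR]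
    have hqR : (q : ℝ) = g * m := by rw [hm]; push_cast; ring
    calc (A.card : ℝ) ≤ g * ((m : ℝ) * rho k ^ t) := h5
      _ = q * Real.exp (-(t * L)) := by rw [h6, hqR]; ring
      _ ≤ q * (Real.exp (k * L) * g *
          Real.exp (-(L / (2 * k)) * q.primeFactorsList.length)) :=
          mul_le_mul_of_nonneg_left h17 (by positivity)
      _ = _ := by ring
  refine ⟨hfirst, fun P hP hPq => ?_⟩
  have hqR : (0 : ℝ) < q := by exact_mod_cast hq
  have hP1 : (1 : ℝ) < P := by exact_mod_cast hP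
  have hlP : 0 < Real.log P := Real.log_pos hP1
  have h18 : Real.log q ≤ q.primeFactorsList.length * Real.log P := by
    have h11 : (q : ℝ) ≤ (P : ℝ) ^ q.primeFactorsList.length := by
      exact_mod_cast le_pow_len hq hPq
    have h12 := Real.log_le_log hqR h11
    rwa [Real.log_pow] at h12
  have h19 : (q : ℝ) * Real.exp (-(L / (2 * k)) * q.primeFactorsList.length)
      ≤ (q : ℝ) ^ (1 - L / (2 * k) / Real.log P) := by
    have e : (q : ℝ) ^ (1 - L / (2 * k) / Real.log P)
        = q * Real.exp (-(L / (2 * k)) * (Real.log q / Real.log P)) := by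
      have e1 : Real.log q * (1 - L / (2 * k) / Real.log P)
          = Real.log q + -(L / (2 * k)) * (Real.log q / Real.log P) := by ring
      rw [Real.rpow_def_of_pos hqR, e1, Real.exp_add, Real.exp_log hqR]
    rw [e]
    refine mul_le_mul_of_nonneg_left (Real.exp_le_exp.2 ?_) hqR.le
    have h20 : Real.log q / Real.log P ≤ q.primeFactorsList.length := by
      rw [div_le_iff₀ hlP]; exact h18
    have h21 : 0 ≤ L / (2 * k) := by positivity
    nlinarith [mul_le_mul_of_nonneg_left h20 h21]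
  calc (A.card : ℝ) ≤ Real.exp (k * L) * (Int.gcd a q : ℝ) * q *
      Real.exp (-(L / (2 * k)) * q.primeFactorsList.length) := hfirst
    _ = Real.exp (k * L) * (Int.gcd a q : ℝ) * (q *
      Real.exp (-(L / (2 * k)) * q.primeFactorsList.length)) := by ring
    _ ≤ _ := mul_le_mul_of_nonneg_left h19 (by positivity)

theorem modPow : ModPow := fun _ hk => main_bound hk

end Vale.Agent.P042.H285
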