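import Vale.Agent.P042.R2.H285.Block
import Vale.Agent.P042.R2.H285.Hensel

set_option autoImplicit false

namespace Vale.Agent.P042.H285

open scoped BigOperators

/-- The saving factor of one block. -/
noncomputable def rho (k : ℕ) : ℝ := 1 - 1 / (k : ℝ) ^ (2 * k)

theorem kpow_ge {k : ℕ} (hk : 2 ≤ k) : (2 * k : ℝ) ≤ (k : ℝ) ^ (2 * k) := by
  have h1 : 2 * k ≤ k ^ (2 * k) := by
    calc 2 * k ≤ k * k := Nat.mul_le_mul hk le_rfl
      _ = k ^ 2 := (sq k).symm
      _ ≤ k ^ (2 * k) := Nat.pow_le_pow_right (by omega) (by omega)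
  exact_mod_cast h1

theorem rho_pos {k : ℕ} (hk : 2 ≤ k) : 0 < rho k := by
  have h := kpow_ge hk
  have h2 : (2 : ℝ) ≤ k := by exact_mod_cast hk
  have h3 : 1 < (k : ℝ) ^ (2 * k) := by linarith
  have : 1 / (k : ℝ) ^ (2 * k) < 1 := by
    rw [div_lt_one (by linarith)]; exact h3
  unfold rho; linarith

theorem rho_lt_one {k : ℕ} (hk : 2 ≤ k) : rho k < 1 := by
  have h := kpow_ge hk
  have h2 : (2 : ℝ) ≤ k := by exact_mod_cast hk
  have : 0 < 1 / (k : ℝ) ^ (2 * k) := by positivity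
  unfold rho; linarith

/-- The count in one block, `p ∤ k`. -/
theorem block_count {p k j t : ℕ} (hp : p.Prime) (hk : 2 ≤ k) (hj : 1 ≤ j)
    (h : p ^ (j - 1) * (p - 1) ≤ k * t) (ht : t ≤ p ^ j) :
    ((p ^ j - t : ℕ) : ℝ) ≤ (p : ℝ) ^ j * rho k := by
  have hp2 : (2 : ℝ) ≤ p := by exact_mod_cast hp.two_le
  have hk2 : (2 : ℝ) ≤ k := by exact_mod_cast hk
  have h1 : (p : ℝ) ^ (j - 1) * (p - 1) ≤ k * t := by
    have : ((p ^ (j - 1) * (p - 1) : ℕ) : ℝ) ≤ ((k * t : ℕ) : ℝ) := by exact_mod_cast h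
    rw [Nat.cast_mul, Nat.cast_mul, Nat.cast_sub hp.one_le, Nat.cast_pow, Nat.cast_one] at this
    exact this
  have h2 : (p : ℝ) ^ j = (p : ℝ) ^ (j - 1) * p := by
    rw [← pow_succ]; congr 1; omega
  have h3 : (p : ℝ) ^ j ≤ 2 * k * t := by
    have h4 : 0 ≤ (p : ℝ) ^ (j - 1) := by positivity
    nlinarith [mul_nonneg h4 (sub_nonneg.2 hp2)]
  have h5 : (p : ℝ) ^ j / (k : ℝ) ^ (2 * k) ≤ t := by
    have h6 := kpow_ge hk
    have h7 : 0 ≤ (p : ℝ) ^ j := by positivity
    rw [div_le_iff₀ (by linarith)]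
    have h8 : (0 : ℝ) ≤ t := by positivity
    nlinarith [mul_le_mul_of_nonneg_left h6 h8]
  rw [Nat.cast_sub ht, Nat.cast_pow]
  unfold rho
  rw [mul_sub, mul_one, mul_one_div]
  linarith

theorem primePow_coprime {p k : ℕ} (hp : p.Prime) (hk : 2 ≤ k) (hpk : ¬ p ∣ k) (a : ℕ) :
    ∃ t d : ℕ, a ≤ 2 * k * t ∧ Fac k (p ^ a) d ∧ (d : ℝ) ≤ (p : ℝ) ^ a * rho k ^ t := by
  induction a using Nat.strong_induction_on with
  | _ a ih =>
    have hr := rho_pos hk
    rcases Nat.eq_zero_or_pos a with h0 | h0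
    · subst h0
      refine ⟨0, 1, by simp, ?_, by simp⟩
      have : NeZero (p ^ 0) := ⟨by simp⟩
      exact (Fac.trivial (k := k) (q := p ^ 0) (by omega)).mono (by simp)
    · have : Fact p.Prime := ⟨hp⟩
      by_cases h1 : a ≤ 2 * k
      · obtain ⟨T, hT0, hT, hcT⟩ := count_lifts (k := k) hp (by omega) (j := a) h0
        have : NeZero (p ^ a) := ⟨(pow_pos hp.pos a).ne'⟩
        have hle : T.card ≤ p ^ a := by
          simpa [ZMod.card] using Finset.card_le_univ T
        refine ⟨1, p ^ a - T.card, by omega, ?_, ?_⟩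
        · refine Fac.base (by omega) T hT0 ?_
          intro z hz
          have e : (((z.val : ℕ) : ℤ) : ZMod (p ^ a)) = z := by
            rw [Int.cast_natCast]; exact ZMod.natCast_zmod_val z
          obtain ⟨u1, u2⟩ := hT ((z.val : ℕ) : ℤ) (by rw [e]; exact hz)
          obtain ⟨n, hn⟩ := hensel_coprime hp hpk _ u1 u2 a
          exact ⟨n, by rw [← hn, e]⟩
        · rw [pow_one]
          exact block_count hp hk h0 hcT hle
      · obtain ⟨b, hb⟩ : ∃ b, a = 2 * k + b := ⟨a - 2 * k, by omega⟩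
        subst hb
        obtain ⟨t, d, i1, i2, i3⟩ := ih b (by omega)
        have hj : 1 ≤ 2 * k := by omega
        obtain ⟨T, hT0, hT, hcT⟩ := count_lifts (k := k) hp (by omega) (j := 2 * k) hj
        have : NeZero (p ^ (2 * k)) := ⟨(pow_pos hp.pos _).ne'⟩
        have : NeZero (p ^ b) := ⟨(pow_pos hp.pos _).ne'⟩
        have hle : T.card ≤ p ^ (2 * k) := by
          simpa [ZMod.card] using Finset.card_le_univ T
        refine ⟨t + 1, (p ^ (2 * k) - T.card) * d, by nlinarith, ?_, ?_⟩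
        · rw [pow_add]
          refine Fac.block (p ^ 2) (pow_mul p 2 k) T hT0 ?_ i2
          intro z hz
          obtain ⟨u1, u2⟩ := hT z hz
          rw [← pow_add]
          exact hensel_coprime hp hpk z u1 u2 _
        · rw [Nat.cast_mul, pow_add, pow_succ]
          have h5 := block_count hp hk hj hcT hle
          have h6 : 0 ≤ (p : ℝ) ^ (2 * k) * rho k := by positivity
          calc ((p ^ (2 * k) - T.card : ℕ) : ℝ) * d
              ≤ ((p : ℝ) ^ (2 * k) * rho k) * ((p : ℝ) ^ b * rho k ^ t) :=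
                mul_le_mul h5 i3 (by positivity) h6
            _ = (p : ℝ) ^ (2 * k) * (p : ℝ) ^ b * (rho k ^ t * rho k) := by ring

theorem primePow_dvd {p k : ℕ} (hp : p.Prime) (hk : 2 ≤ k) (hpk : p ∣ k) (a : ℕ) :
    ∃ t d : ℕ, a ≤ 2 * k * (t + 1) ∧ Fac k (p ^ a) d ∧ (d : ℝ) ≤ (p : ℝ) ^ a * rho k ^ t := by
  induction a using Nat.strong_induction_on with
  | _ a ih =>
    have hr := rho_pos hk
    by_cases h1 : a ≤ 2 * k
    · have : NeZero (p ^ a) := ⟨(pow_pos hp.pos a).ne'⟩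
      exact ⟨0, p ^ a, by omega, Fac.trivial (by omega), by simp⟩
    · obtain ⟨b, hb⟩ : ∃ b, a = 2 * k + b := ⟨a - 2 * k, by omega⟩
      subst hb
      obtain ⟨t, d, i1, i2, i3⟩ := ih b (by omega)
      have : NeZero (p ^ (2 * k)) := ⟨(pow_pos hp.pos _).ne'⟩
      have : NeZero (p ^ b) := ⟨(pow_pos hp.pos _).ne'⟩
      have : Fact (1 < p ^ (2 * k)) := ⟨Nat.one_lt_pow (by omega) hp.one_lt⟩
      have hB : p ^ (2 * k) ≤ k ^ (2 * k) :=
        Nat.pow_le_pow_left (Nat.le_of_dvd (by omega) hpk) _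
      refine ⟨t + 1, (p ^ (2 * k) - 1) * d, by nlinarith, ?_, ?_⟩
      · rw [pow_add]
        have := Fac.block (k := k) (B := p ^ (2 * k)) (m := p ^ b) (d := d) (p ^ 2) (pow_mul p 2 k)
          {1} (by simp) ?_ i2
        · simpa using this
        · intro z hz
          rw [← pow_add]
          exact hensel_dvd hp (by omega) z (by simpa using hz) _
      · have h5 : ((p ^ (2 * k) - 1 : ℕ) : ℝ) ≤ (p : ℝ) ^ (2 * k) * rho k := by
          have h7 : (p : ℝ) ^ (2 * k) ≤ (k : ℝ) ^ (2 * k) := by exact_mod_cast hB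
          have h8 : 0 < (k : ℝ) ^ (2 * k) := by positivity
          rw [Nat.cast_sub (Nat.one_le_pow _ _ hp.pos), Nat.cast_pow, Nat.cast_one]
          unfold rho
          rw [mul_sub, mul_one, mul_one_div]
          have h9 : (p : ℝ) ^ (2 * k) / (k : ℝ) ^ (2 * k) ≤ 1 := by
            rw [div_le_one h8]; exact h7
          linarith
        have h6 : 0 ≤ (p : ℝ) ^ (2 * k) * rho k := by positivity
        rw [Nat.cast_mul, pow_add, pow_succ]
        calc ((p ^ (2 * k) - 1 : ℕ) : ℝ) * d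
            ≤ ((p : ℝ) ^ (2 * k) * rho k) * ((p : ℝ) ^ b * rho k ^ t) :=
              mul_le_mul h5 i3 (by positivity) h6
          _ = (p : ℝ) ^ (2 * k) * (p : ℝ) ^ b * (rho k ^ t * rho k) := by ring

/-- Number of prime factors of `q` which divide `k`. -/
def wk (k q : ℕ) : ℕ := (q.primeFactors.filter fun p => p ∣ k).card

theorem wk_mul (k : ℕ) {a b : ℕ} (h : a.Coprime b) : wk k (a * b) = wk k a + wk k b := by
  unfold wk
  rw [h.primeFactors_mul, Finset.filter_union,
    Finset.card_union_of_disjoint (Finset.disjoint_filter_filter h.disjoint_primeFactors)]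

theorem wk_le (k q : ℕ) (hk : 1 ≤ k) : wk k q ≤ k := by
  unfold wk
  have h : (q.primeFactors.filter fun p => p ∣ k) ⊆ Finset.Icc 1 k := by
    intro p hp
    rw [Finset.mem_filter] at hp
    rw [Finset.mem_Icc]
    exact ⟨(Nat.prime_of_mem_primeFactors hp.1).one_le, Nat.le_of_dvd (by omega) hp.2⟩
  simpa using Finset.card_le_card h

theorem global {k : ℕ} (hk : 2 ≤ k) (q : ℕ) (hq : 1 ≤ q) :
    ∃ t d : ℕ, q.primeFactorsList.length ≤ 2 * k * (t + wk k q) ∧ Fac k q d ∧
      (d : ℝ) ≤ (q : ℝ) * rho k ^ t := by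
  have hr := rho_pos hk
  induction q using Nat.recOnPosPrimePosCoprime with
  | prime_pow p n hp hn =>
    by_cases hpk : p ∣ k
    · obtain ⟨t, d, h1, h2, h3⟩ := primePow_dvd hp hk hpk n
      refine ⟨t, d, ?_, h2, by rw [Nat.cast_pow]; exact h3⟩
      have hw : wk k (p ^ n) = 1 := by
        unfold wk
        rw [Nat.primeFactors_prime_pow hn.ne' hp]
        simp [Finset.filter_singleton, hpk]
      rw [hw, Nat.Prime.primeFactorsList_pow hp, List.length_replicate]
      exact h1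
    · obtain ⟨t, d, h1, h2, h3⟩ := primePow_coprime hp hk hpk n
      refine ⟨t, d, ?_, h2, by rw [Nat.cast_pow]; exact h3⟩
      rw [Nat.Prime.primeFactorsList_pow hp, List.length_replicate]
      exact h1.trans (Nat.mul_le_mul le_rfl (Nat.le_add_right _ _))
  | zero => omega
  | one =>
    refine ⟨0, 1, by simp, Fac.trivial (by omega), by simp⟩
  | coprime a b ha hb hab iha ihb =>
    obtain ⟨t, d, h1, h2, h3⟩ := iha (by omega)
    obtain ⟨t', d', h1', h2', h3'⟩ := ihb (by omega)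
    refine ⟨t + t', d * d', ?_, Fac.mul hab h2 h2', ?_⟩
    · rw [wk_mul k hab, (Nat.perm_primeFactorsList_mul_of_coprime hab).length_eq,
        List.length_append]
      nlinarith
    · rw [Nat.cast_mul, Nat.cast_mul, pow_add]
      calc (d : ℝ) * d' ≤ ((a : ℝ) * rho k ^ t) * ((b : ℝ) * rho k ^ t') :=
            mul_le_mul h3 h3' (by positivity) (by positivity)
        _ = _ := by ring

end Vale.Agent.P042.H285
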